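import Vale.Agent.P002.CurveProd.Factors

/-!
P002, products of curves: a polynomial in the entries of several independent representations that
vanishes at integral tuples vanishes at semisimple tuples.
-/

namespace Vale.Agent.P002.CurveProd

open Matrix

universe u

variable {Q : Type} {H : Q → Type u} [∀ q, Group (H q)] {a n : Q → ℕ}

/-- The variables: entries of the values at the chosen elements of each slot. -/
abbrev Var (a n : Q → ℕ) := Σ q, Fin (n q) × Fin (a q) × Fin (a q)

/-- The entries of a tuple of representations. -/
noncomputable def entries (s : ∀ q, Fin (n q) → H q) (σ : ∀ q, H q →* SLC (a q)) (z : Var a n) :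
    ℂ :=
  (σ z.1 (s z.1 z.2.1)).1 z.2.2.1 z.2.2.2

/-- Vanishing at integral tuples implies vanishing at semisimple tuples. -/
theorem slots_dense [Fintype Q] [DecidableEq Q] (hH : ∀ q, CurveLike (H q))
    (s : ∀ q, Fin (n q) → H q) (P : MvPolynomial (Var a n) ℂ)
    (hint : ∀ σ : ∀ q, H q →* SLC (a q), (∀ q x i j, ∃ z : ℤ, (σ q x).1 i j = (z : ℂ)) →
      MvPolynomial.eval (entries s σ) P = 0)
    (σ : ∀ q, H q →* SLC (a q)) (hσ : ∀ q, Semisimple (σ q)) :
    MvPolynomial.eval (entries s σ) P = 0 := by
  suffices hS : ∀ S : Finset Q, ∀ σ : ∀ q, H q →* SLC (a q), (∀ q ∈ S, Semisimple (σ q)) →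
      (∀ q ∉ S, ∀ x i j, ∃ z : ℤ, (σ q x).1 i j = (z : ℂ)) →
      MvPolynomial.eval (entries s σ) P = 0 from
    hS Finset.univ σ (fun q _ => hσ q) fun q hq => absurd (Finset.mem_univ q) hq
  intro S
  induction S using Finset.induction_on with
  | empty => exact fun σ _ h => hint σ fun q => h q (Finset.notMem_empty q)
  | insert q S hq ih =>
    intro σ hss hint'
    let G : MvPolynomial (Fin (n q) × Fin (a q) × Fin (a q)) ℂ := MvPolynomial.bind₁
      (fun z : Var a n => if h : z.1 = q then MvPolynomial.X (h ▸ z.2) else
        MvPolynomial.C (entries s σ z)) P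
    have hG : ∀ τ : H q →* SLC (a q),
        evalRep (s q) G τ = MvPolynomial.eval (entries s (Function.update σ q τ)) P := by
      intro τ
      simp only [evalRep, G, MvPolynomial.eval, MvPolynomial.eval₂Hom_bind₁]
      congr 2 with z
      obtain ⟨q', z⟩ := z
      by_cases h : q' = q
      · subst h
        simp [entries]
      · simp [entries, dif_neg h, Function.update_of_ne h]
    have h := (hH q).dense (a q) (n q) (s q) G (fun τ hτ => ?_) (σ q)
      (hss q (Finset.mem_insert_self q S))
    · rwa [hG, Function.update_eq_self] at h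
    rw [hG]
    refine ih _ (fun q' hq' => ?_) fun q' hq' => ?_
    · rw [Function.update_of_ne (ne_of_mem_of_not_mem hq' hq)]
      exact hss q' (Finset.mem_insert_of_mem hq')
    · by_cases h : q' = q
      · subst h
        rw [Function.update_self]
        exact hτ
      · rw [Function.update_of_ne h]
        exact hint' q' (by simp [h, hq'])

end Vale.Agent.P002.CurveProd
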