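import Vale.Agent.P002.Prod.Main
import Vale.Agent.P002.CurveProd.Slots

/-!
P002, products of curves: density of integral points over one field for products of groups whose
integral representations are dense.
-/

namespace Vale.Agent.P002.CurveProd

open Matrix

universe u

/-- Homomorphisms on a finite product agree if they agree on every factor. -/
theorem pi_hom_ext {n : ℕ} {H : Fin n → Type u} [∀ i, Group (H i)] {M : Type*} [Monoid M]
    {f g : (∀ i, H i) →* M} (h : ∀ i x, f (Pi.mulSingle i x) = g (Pi.mulSingle i x)) : f = g := by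
  classical
  ext x
  exact (Subgroup.pi_mem_of_mulSingle_mem (H := f.eqLocus g) x fun i => h i (x i) :)

section Twist

variable {H : Type u} [Group H] {d : ℕ}

/-- A representation multiplied by a character. -/
noncomputable def twist (χ : H →* ℂˣ) (τ : H →* SLC d) : H →* Matrix (Fin d) (Fin d) ℂ where
  toFun g := (χ g : ℂ) • (τ g).1
  map_one' := by simp
  map_mul' g h := by
    rw [map_mul, map_mul, Units.val_mul, Matrix.SpecialLinearGroup.coe_mul, smul_mul_smul_comm]

theorem det_twist (χ : H →* ℂˣ) (τ : H →* SLC d) (g : H) :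
    (twist χ τ g).det = (χ g : ℂ) ^ d := by
  change ((χ g : ℂ) • (τ g).1).det = _
  rw [Matrix.det_smul, Fintype.card_fin, (τ g).2, mul_one]

/-- A twist spans all matrices iff the representation does. -/
theorem span_twist (χ : H →* ℂˣ) (τ : H →* SLC d) :
    Submodule.span ℂ (Set.range (twist χ τ)) = Submodule.span ℂ (Set.range fun g => (τ g).1) := by
  refine le_antisymm (Submodule.span_le.2 ?_) (Submodule.span_le.2 ?_)
  · rintro _ ⟨g, rfl⟩
    exact Submodule.smul_mem _ _ (Submodule.subset_span ⟨g, rfl⟩)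
  · rintro _ ⟨g, rfl⟩
    have h : (τ g).1 = ((χ g)⁻¹ : ℂˣ) • twist χ τ g := by
      change _ = ((χ g)⁻¹ : ℂˣ) • ((χ g : ℂ) • (τ g).1)
      rw [Units.smul_def, smul_smul, Units.inv_mul, one_smul]
    change (τ g).1 ∈ Submodule.span ℂ (Set.range (twist χ τ))
    rw [h, Units.smul_def]
    exact Submodule.smul_mem _ _ (Submodule.subset_span ⟨g, rfl⟩)

/-- A representation spanning all matrices is semisimple. -/
theorem semisimple_of_span (τ : H →* SLC d)
    (h : Submodule.span ℂ (Set.range fun g => (τ g).1) = ⊤) : Semisimple τ := by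
  intro W hW
  by_cases hW0 : W = ⊥
  · exact ⟨⊤, fun _ _ _ => Submodule.mem_top, hW0 ▸ isCompl_bot_top⟩
  obtain ⟨v, hv, hv0⟩ := Submodule.exists_mem_ne_zero_of_ne_bot hW0
  obtain ⟨p, hp⟩ := Function.ne_iff.1 hv0
  have hall : ∀ X : Matrix (Fin d) (Fin d) ℂ, X.mulVec v ∈ W := by
    intro X
    have hX : X ∈ Submodule.span ℂ (Set.range fun g => (τ g).1) := h ▸ Submodule.mem_top
    induction hX using Submodule.span_induction with
    | mem X hX => obtain ⟨g, rfl⟩ := hX; exact hW g v hv
    | zero => simp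
    | add A B _ _ hA hB => rw [Matrix.add_mulVec]; exact add_mem hA hB
    | smul t A _ hA => rw [Matrix.smul_mulVec]; exact Submodule.smul_mem _ t hA
  have htop : W = ⊤ := eq_top_iff.2 fun w _ => by
    have h1 := hall (Matrix.of fun i j => if j = p then w i / v p else 0)
    have h2 : (Matrix.of fun i j => if j = p then w i / v p else 0).mulVec v = w := by
      funext i
      simp only [Matrix.mulVec, dotProduct, of_apply, ite_mul, zero_mul, Finset.sum_ite_eq',
        Finset.mem_univ, if_true]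
      exact div_mul_cancel₀ _ hp
    rwa [h2] at h1
  exact ⟨⊥, fun g v hv => by simp_all, htop ▸ isCompl_top_bot⟩

end Twist

variable {n : ℕ} {H : Fin n → Type u} [∀ i, Group (H i)]

/-- The representation in `SL_r` of a family of blocks of total determinant one. -/
noncomputable def sumRep {C r : ℕ} (a : Fin C → Fin n → ℕ)
    (σ : ∀ c i, H i →* Matrix (Fin (a c i)) (Fin (a c i)) ℂ) (e : Idx a ≃ Fin r)
    (hdet : ∀ g, (bigRep a σ g).det = 1) : (∀ i, H i) →* SLC r where
  toFun g := ⟨(bigRep a σ g).submatrix e.symm e.symm, by rw [det_submatrix_equiv_self, hdet]⟩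
  map_one' := by
    apply Subtype.ext
    simp
  map_mul' g h := by
    apply Subtype.ext
    change _ = (bigRep a σ g).submatrix e.symm e.symm * (bigRep a σ h).submatrix e.symm e.symm
    simp only [submatrix_mul_equiv, map_mul]

/-- A diagonal coordinate: a block and a generator of a factor. -/
abbrev Coord (k : Fin n → ℕ) (C : ℕ) := Fin C × Σ i : Fin n, Fin (k i)

/-- The determinant condition at a generator. -/
def vec (k : Fin n → ℕ) {C : ℕ} (a : Fin C → Fin n → ℕ) (x : Σ i : Fin n, Fin (k i))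
    (q : Coord k C) : ℤ :=
  if q.2 = x then
    ((a q.1 q.2.1 * Fintype.card (∀ j : {j // j ≠ q.2.1}, Fin (a q.1 j)) : ℕ) : ℤ) else 0

/-- The subgroup of the determinant conditions. -/
def constr (k : Fin n → ℕ) {C : ℕ} (a : Fin C → Fin n → ℕ) : AddSubgroup (Coord k C → ℤ) :=
  AddSubgroup.closure (Set.range (vec k a))

/-- The order of the torsion of the determinant conditions of a shape. -/
noncomputable def torusOrder (k : Fin n → ℕ) {C : ℕ} (a : Fin C → Fin n → ℕ) : ℕ :=
  (exists_torus (Coord k C → ℤ) (constr k a)).choose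

theorem torusOrder_pos (k : Fin n → ℕ) {C : ℕ} (a : Fin C → Fin n → ℕ) : 0 < torusOrder k a :=
  (exists_torus (Coord k C → ℤ) (constr k a)).choose_spec.choose_spec.choose_spec.choose_spec.1

theorem evalHom_vec (k : Fin n → ℕ) {C : ℕ} (a : Fin C → Fin n → ℕ) (D : Coord k C → ℂˣ)
    (x : Σ i : Fin n, Fin (k i)) : evalHom D (vec k a x) = Additive.ofMul
      (∏ c : Fin C, D (c, x) ^ (a c x.1 * Fintype.card (∀ j : {j // j ≠ x.1}, Fin (a c j)))) := by
  change ∑ q, vec k a x q • Additive.ofMul (D q) = _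
  rw [ofMul_prod, Fintype.sum_prod_type]
  refine Finset.sum_congr rfl fun c _ => ?_
  rw [Finset.sum_eq_single x]
  · rw [ofMul_pow, vec, if_pos rfl, natCast_zsmul]
  · intro y _ hy
    rw [vec, if_neg hy, zero_smul]
  · exact fun h => absurd (Finset.mem_univ x) h

/-- A product of Laurent functions is Laurent. -/
theorem isLaurent_prod {ι : Type*} (S : Finset ι) (F : ι → ℂˣ → ℂ)
    (h : ∀ i ∈ S, IsLaurent (F i)) : IsLaurent fun t => ∏ i ∈ S, F i t := by
  classical
  induction S using Finset.induction_on with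
  | empty => simpa using isLaurent_const 1
  | insert i S hi ih =>
    simp only [Finset.prod_insert hi]
    exact (h i (Finset.mem_insert_self i S)).mul (ih fun j hj => h j (Finset.mem_insert_of_mem hj))

/-- Vanishing at the integral semisimple points implies vanishing at a sum of full tensor blocks. -/
theorem zero_at_sum (hH : ∀ i, CurveLike (H i)) {k : Fin n → ℕ} (x : ∀ i, Fin (k i) → H i)
    (hgen : ∀ i, Subgroup.closure (Set.range (x i)) = ⊤)
    (hchar : ∀ i (v : Fin (k i) → ℂˣ), ∃ χ : H i →* ℂˣ, ∀ j, χ (x i j) = v j)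
    {M N r : ℕ} (hM : 0 < M) (s : Fin N → ∀ i, H i) {C : ℕ} (a : Fin C → Fin n → ℕ)
    (σ : ∀ c i, H i →* Matrix (Fin (a c i)) (Fin (a c i)) ℂ) (e : Idx a ≃ Fin r)
    (hdet : ∀ g, (bigRep a σ g).det = 1) (hpos : ∀ c i, 0 < a c i)
    (hspan : ∀ c i, Submodule.span ℂ (Set.range (σ c i)) = ⊤) (hmt : torusOrder k a ∣ M)
    (f : MvPolynomial (Fin N × Fin r × Fin r) ℂ)
    (hint : ∀ ρ : (∀ i, H i) →* SLC r, Semisimple ρ → IntegralIn (field M) ρ →
      evalRep s f ρ = 0) :
    evalRep s f (sumRep a σ e hdet) = 0 := by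
  classical
  -- the scalar part of each block
  have hsplit : ∀ c i, ∃ (χ : H i →* ℂˣ) (τ : H i →* SLC (a c i)), σ c i = twist χ τ := by
    intro c i
    let δ : H i →* ℂˣ := (Matrix.detMonoidHom.comp (σ c i)).toHomUnits
    choose z hz using fun j => IsAlgClosed.exists_pow_nat_eq (δ (x i j) : ℂ) (hpos c i)
    have hz0 : ∀ j, z j ≠ 0 := fun j h => (δ (x i j)).ne_zero (by
      rw [← hz j, h, zero_pow (hpos c i).ne'])
    obtain ⟨χ, hχ⟩ := hchar i fun j => Units.mk0 (z j) (hz0 j)
    have hχδ : (powMonoidHom (a c i)).comp χ = δ := by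
      refine MonoidHom.eq_of_eqOn_dense (hgen i) ?_
      rintro _ ⟨j, rfl⟩
      refine Units.ext ?_
      simp [hχ, hz]
    have hd : ∀ g, (σ c i g).det = (χ g : ℂ) ^ a c i := fun g => by
      rw [← Units.val_pow_eq_pow_val]
      exact (congrArg Units.val (DFunLike.congr_fun hχδ g)).symm
    let τ : H i →* SLC (a c i) :=
      { toFun := fun g => ⟨((χ g)⁻¹ : ℂˣ).val • σ c i g, by
          rw [Matrix.det_smul, Fintype.card_fin, hd, ← mul_pow, Units.inv_mul, one_pow]⟩
        map_one' := Subtype.ext (by simp)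
        map_mul' := fun g h => Subtype.ext (by
          change ((χ (g * h))⁻¹ : ℂˣ).val • σ c i (g * h) =
            (((χ g)⁻¹ : ℂˣ).val • σ c i g) * (((χ h)⁻¹ : ℂˣ).val • σ c i h)
          rw [map_mul, map_mul, smul_mul_smul_comm, mul_inv, Units.val_mul]) }
    refine ⟨χ, τ, MonoidHom.ext fun g => ?_⟩
    change σ c i g = (χ g : ℂ) • (((χ g)⁻¹ : ℂˣ).val • σ c i g)
    rw [smul_smul, Units.mul_inv, one_smul]
  choose χ0 τ0 hσ using hsplit
  -- the torus of the scalar parts
  obtain ⟨d, co, base, hmpos, hco, hbase, w, hw⟩ :=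
    (exists_torus (Coord k C → ℤ) (constr k a)).choose_spec
  let φ : (Coord k C → ℤ) →+ Additive ℂˣ := evalHom fun q => χ0 q.1 q.2.1 (x q.2.1 q.2.2)
  have hφK : ∀ z ∈ constr k a, φ z = 0 := by
    intro z hz
    induction hz using AddSubgroup.closure_induction with
    | mem z hz =>
      obtain ⟨⟨i, j⟩, rfl⟩ := hz
      simp only [φ]
      rw [evalHom_vec k a _ ⟨i, j⟩, ofMul_eq_zero]
      refine Units.ext ?_
      have h := hdet (Pi.mulSingle i (x i j))
      rw [det_bigRep_single] at h
      rw [Units.coe_prod, Units.val_one, ← h]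
      refine Finset.prod_congr rfl fun c _ => ?_
      rw [hσ, det_twist, Units.val_pow_eq_pow_val, pow_mul]
    | zero => simp
    | add x y _ _ hx hy => rw [map_add, hx, hy, add_zero]
    | neg x _ hx => rw [map_neg, hx, neg_zero]
  have hroot : ∀ z, Additive.toMul (φ (base z)) ∈ intUnits M := by
    intro z
    refine root_mem hM ?_
    obtain ⟨q, hq⟩ := hmt
    have h1 := hφK _ (hbase z)
    rw [map_nsmul] at h1
    rw [← toMul_nsmul, hq, mul_nsmul, show (torusOrder k a) • φ (base z) = 0 from h1, nsmul_zero]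
    rfl
  let Ψ : (Fin d → ℂˣ) → (Coord k C → ℤ) →+ Additive ℂˣ := fun t => φ.comp base +
    { toFun := fun z => ∑ l, co z l • Additive.ofMul (t l)
      map_zero' := by simp
      map_add' := fun y z => by
          rw [← Finset.sum_add_distrib]
          exact Finset.sum_congr rfl fun l _ => by rw [map_add, Pi.add_apply, add_zsmul] }
  let Dt : (Fin d → ℂˣ) → Coord k C → ℂˣ := fun t q => Additive.toMul (Ψ t (Pi.single q 1))
  have hΨ : ∀ t, Ψ t = evalHom (Dt t) := fun t => addHom_eq_evalHom _ _ fun q => rfl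
  choose χ hχ using fun (t : Fin d → ℂˣ) c i => hchar i fun j => Dt t (c, ⟨i, j⟩)
  -- determinant one along the torus
  have hdett : ∀ t (τ : ∀ c i, H i →* SLC (a c i)) g,
      (bigRep a (fun c i => twist (χ t c i) (τ c i)) g).det = 1 := by
    intro t τ
    have h1 : Matrix.detMonoidHom.comp (bigRep a fun c i => twist (χ t c i) (τ c i)) = 1 := by
      refine pi_hom_ext fun i y => ?_
      have h2 : ((Matrix.detMonoidHom.comp (bigRep a fun c i => twist (χ t c i) (τ c i))).comp
          (MonoidHom.mulSingle H i)) = 1 := by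
        refine MonoidHom.eq_of_eqOn_dense (hgen i) ?_
        rintro _ ⟨j, rfl⟩
        change (bigRep a (fun c i => twist (χ t c i) (τ c i)) (Pi.mulSingle i (x i j))).det = 1
        have hv : Ψ t (vec k a ⟨i, j⟩) = 0 := by
          have hmem : vec k a ⟨i, j⟩ ∈ constr k a := AddSubgroup.subset_closure ⟨_, rfl⟩
          have hbase' : base (vec k a ⟨i, j⟩) = vec k a ⟨i, j⟩ := by
            conv_rhs => rw [hw (vec k a ⟨i, j⟩)]
            simp [hco _ hmem]
          simp [Ψ, hbase', hφK _ hmem, hco _ hmem]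
        rw [hΨ, evalHom_vec k a _ ⟨i, j⟩, ofMul_eq_zero] at hv
        rw [det_bigRep_single, ← Units.val_one, ← hv, Units.coe_prod]
        refine Finset.prod_congr rfl fun c _ => ?_
        rw [det_twist, hχ, Units.val_pow_eq_pow_val, pow_mul]
      exact DFunLike.congr_fun h2 y
    exact fun g => DFunLike.congr_fun h1 g
  let R : (Fin d → ℂˣ) → (∀ c i, H i →* SLC (a c i)) → ((∀ i, H i) →* SLC r) := fun t τ =>
    sumRep a (fun c i => twist (χ t c i) (τ c i)) e (hdett t τ)
  -- characters along a line of parameters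
  have hmono : ∀ t l c i g, ∃ (b : ℂˣ) (m : ℤ), ∀ y, χ (Function.update t l y) c i g = b * y ^ m := by
    intro t l c i g
    have hg : g ∈ Subgroup.closure (Set.range (x i)) := hgen i ▸ Subgroup.mem_top g
    induction hg using Subgroup.closure_induction with
    | mem g hg =>
      obtain ⟨j, rfl⟩ := hg
      refine ⟨Dt (Function.update t l 1) (c, ⟨i, j⟩), co (Pi.single (c, ⟨i, j⟩) 1) l, fun y => ?_⟩
      have hu : ∀ l', Function.update t l y l' =
          Function.update t l 1 l' * (Pi.mulSingle l y : Fin d → ℂˣ) l' := by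
        intro l'
        by_cases h : l' = l
        · subst h; simp
        · simp [h]
      rw [hχ]
      refine Additive.ofMul.injective ?_
      simp only [Dt, Ψ, AddMonoidHom.add_apply, AddMonoidHom.comp_apply, AddMonoidHom.coe_mk,
        ZeroHom.coe_mk, ofMul_mul, ofMul_toMul, ofMul_zpow, hu, zsmul_add, Finset.sum_add_distrib]
      rw [Finset.sum_eq_single (f := fun l' =>
        co (Pi.single (c, ⟨i, j⟩) 1) l' • Additive.ofMul ((Pi.mulSingle l y : Fin d → ℂˣ) l')) l]
      · rw [Pi.mulSingle_eq_same]; abel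
      · intro l' _ hl
        rw [Pi.mulSingle_eq_of_ne hl, ofMul_one, zsmul_zero]
      · exact fun h => absurd (Finset.mem_univ l) h
    | one => exact ⟨1, 0, fun y => by simp⟩
    | mul g h _ _ hg hh =>
      obtain ⟨b, m, hb⟩ := hg
      obtain ⟨b', m', hb'⟩ := hh
      exact ⟨b * b', m + m', fun y => by rw [map_mul, hb, hb', _root_.zpow_add, mul_mul_mul_comm]⟩
    | inv g _ hg =>
      obtain ⟨b, m, hb⟩ := hg
      exact ⟨b⁻¹, -m, fun y => by rw [map_inv, hb, mul_inv, _root_.zpow_neg]⟩
  have hgrid : ∀ t, Grid t → ∀ c i g, χ t c i g ∈ intUnits M := by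
    intro t ht c i g
    have hle : Subgroup.closure (Set.range (x i)) ≤ (intUnits M).comap (χ t c i) := by
      rw [Subgroup.closure_le]
      rintro _ ⟨j, rfl⟩
      rw [SetLike.mem_coe, Subgroup.mem_comap, hχ]
      simp only [Dt, Ψ, AddMonoidHom.add_apply, AddMonoidHom.comp_apply, AddMonoidHom.coe_mk,
        ZeroHom.coe_mk, toMul_add, toMul_sum, toMul_zsmul, toMul_ofMul]
      refine Subgroup.mul_mem _ (hroot _) (Subgroup.prod_mem _ fun l _ => ?_)
      obtain ⟨b, hb⟩ := ht l
      simp only at hb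
      rw [← hb]
      exact Subgroup.zpow_mem _ (Subgroup.pow_mem _ (fund_mem M) b) _
    exact hle (hgen i ▸ Subgroup.mem_top g)
  -- bases of the blocks
  have hspan0 : ∀ c i, Submodule.span ℂ (Set.range fun g => (τ0 c i g).1) = ⊤ := fun c i => by
    rw [← span_twist (χ0 c i), ← hσ]
    exact hspan c i
  have hwords : ∀ c i, ∃ g : Fin (a c i) × Fin (a c i) → H i,
      ((Matrix.stdBasis ℂ (Fin (a c i)) (Fin (a c i))).det fun p => (τ0 c i (g p)).1) ≠ 0 := by
    intro c i
    obtain ⟨S, hS, hSspan, hSli⟩ :=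
      exists_linearIndependent ℂ (Set.range fun g => (τ0 c i g).1)
    let B0 := Module.Basis.mk hSli (show ⊤ ≤ _ by rw [Subtype.range_coe, hSspan, hspan0])
    let B := B0.reindex (B0.indexEquiv (Matrix.stdBasis ℂ (Fin (a c i)) (Fin (a c i))))
    have hB : ∀ p, B p ∈ Set.range fun g => (τ0 c i g).1 := fun p => by
      simp only [B, Module.Basis.reindex_apply, B0, Module.Basis.mk_apply]
      exact hS (Subtype.coe_prop _)
    choose g hg using hB
    refine ⟨g, ?_⟩
    rw [funext hg]
    exact ((Matrix.stdBasis ℂ (Fin (a c i)) (Fin (a c i))).isUnit_det B).ne_zero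
  choose g hg using hwords
  let wd : (∀ c i, H i →* SLC (a c i)) → ℂ := fun τ => ∏ c, ∏ i,
    (Matrix.stdBasis ℂ (Fin (a c i)) (Fin (a c i))).det fun p => (τ c i (g c i p)).1
  have hss : ∀ t τ, wd τ ≠ 0 → Semisimple (R t τ) := by
    intro t τ hwd
    refine semisimple_of_blocks _ e (fun c y => tens (a c) fun i => twist (χ t c i) (τ c i) (y i))
      (fun y => rfl) fun c => span_tens (a c) (fun i => twist (χ t c i) (τ c i)) fun i => ?_
    simp only [wd, Finset.prod_ne_zero_iff] at hwd
    have h1 := (Module.Basis.is_basis_iff_det _).2 (isUnit_iff_ne_zero.2 (hwd c (Finset.mem_univ _) i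
      (Finset.mem_univ _)))
    rw [span_twist, eq_top_iff, ← h1.2]
    exact Submodule.span_mono (Set.range_comp_subset_range (g c i) fun y => (τ c i y).1)
  -- polynomials in the entries of the blocks
  let Q : Type := Fin C × Fin n
  let a' : Q → ℕ := fun q => a q.1 q.2
  let n' : Q → ℕ := fun q => N + a q.1 q.2 * a q.1 q.2
  let s' : ∀ q : Q, Fin (n' q) → H q.2 :=
    fun q => Fin.append (fun l => s l q.2) fun p => g q.1 q.2 (finProdFinEquiv.symm p)
  let X : ∀ c i, Fin (n' (c, i)) →
      Matrix (Fin (a c i)) (Fin (a c i)) (MvPolynomial (Var a' n') ℂ) :=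
    fun c i l => Matrix.of fun p p' => MvPolynomial.X ⟨(c, i), l, p, p'⟩
  let ent : (Fin d → ℂˣ) → Fin N → Matrix (Idx a) (Idx a) (MvPolynomial (Var a' n') ℂ) :=
    fun t l => blockDiagonal' fun c => tens (a c) fun i =>
      (MvPolynomial.C ((χ t c i (s l i) : ℂˣ) : ℂ) : MvPolynomial (Var a' n') ℂ) • X c i (Fin.castAdd _ l)
  let P : (Fin d → ℂˣ) → MvPolynomial (Var a' n') ℂ := fun t =>
    MvPolynomial.aeval (fun z : Fin N × Fin r × Fin r => ent t z.1 (e.symm z.2.1) (e.symm z.2.2)) f *
      ∏ c, ∏ i, (Matrix.of fun p q : Fin (a c i) × Fin (a c i) =>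
        X c i (Fin.natAdd N (finProdFinEquiv q)) p.1 p.2).det
  have hs' : ∀ c i q, s' (c, i) (Fin.natAdd N (finProdFinEquiv q)) = g c i q := fun c i q => by
    simp only [s', Fin.append_right, Equiv.symm_apply_apply]
  have hP : ∀ t (τ : ∀ q : Q, H q.2 →* SLC (a' q)), MvPolynomial.eval (entries s' τ) (P t) =
      evalRep s f (R t fun c i => τ (c, i)) * wd fun c i => τ (c, i) := by
    intro t τ
    simp only [P, map_mul, map_prod, Surf.eval_aeval]
    congr 1
    · refine congrArg (MvPolynomial.eval · f) (funext fun z => ?_)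
      change MvPolynomial.eval _ (ent t z.1 (e.symm z.2.1) (e.symm z.2.2)) =
        bigRep a _ (s z.1) (e.symm z.2.1) (e.symm z.2.2)
      rw [bigRep_apply]
      generalize e.symm z.2.1 = p
      generalize e.symm z.2.2 = q
      obtain ⟨c, p⟩ := p
      obtain ⟨c', q⟩ := q
      by_cases h : c = c'
      · subst h
        simp [ent, X, entries, s', twist, blockDiagonal'_apply_eq, tens_apply]
      · simp [ent, blockDiagonal'_apply_ne _ _ _ h]
    · refine Finset.prod_congr rfl fun c _ => Finset.prod_congr rfl fun i _ => ?_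
      rw [RingHom.map_det, Module.Basis.det_apply]
      congr 1
      ext p q
      simp [X, entries, hs', Module.Basis.toMatrix_apply, Matrix.stdBasis]
  -- vanishing on the grid
  have hzero : ∀ t, Grid t → evalRep s f (R t τ0) = 0 := by
    intro t ht
    have h := slots_dense (fun q : Q => hH q.2) s' (P t) (fun τ hτ => ?_) (fun q => τ0 q.1 q.2)
      fun q => semisimple_of_span _ (hspan0 q.1 q.2)
    · rw [hP] at h
      refine (mul_eq_zero.1 h).resolve_right ?_
      simp only [wd, Finset.prod_ne_zero_iff]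
      exact fun c _ i _ => hg c i
    rw [hP]
    by_cases hwd : wd (fun c i => τ (c, i)) = 0
    · rw [hwd, mul_zero]
    rw [hint _ (hss t _ hwd) ⟨1, fun y p q => ?_⟩, zero_mul]
    suffices hO : bigRep a (fun c i => twist (χ t c i) (τ (c, i))) y (e.symm p) (e.symm q) ∈ OInt M by
      rw [one_mul, inv_one, mul_one]
      exact hO
    rw [bigRep_apply]
    generalize e.symm p = p'
    generalize e.symm q = q'
    obtain ⟨c, p'⟩ := p'
    obtain ⟨c', q'⟩ := q'
    by_cases h : c = c'
    · subst h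
      rw [blockDiagonal'_apply_eq, tens_apply]
      refine prod_mem fun i _ => ?_
      obtain ⟨z, hz⟩ := hτ (c, i) (y i) (p' i) (q' i)
      change (χ t c i (y i) : ℂ) * (τ (c, i) (y i)).1 (p' i) (q' i) ∈ OInt M
      rw [hz]
      exact mul_mem (hgrid t ht c i (y i)).1 (intCast_mem _ z)
    · rw [blockDiagonal'_apply_ne _ _ _ h]
      exact zero_mem _
  -- Laurent in the parameters
  have hL : ∀ t l, IsLaurent fun y => evalRep s f (R (Function.update t l y) τ0) := by
    intro t l
    unfold evalRep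
    refine isLaurent_eval (fun (z : Fin N × Fin r × Fin r) y =>
      bigRep a (fun c i => twist (χ (Function.update t l y) c i) (τ0 c i)) (s z.1)
        (e.symm z.2.1) (e.symm z.2.2)) (fun z => ?_) f
    simp only [bigRep_apply]
    generalize e.symm z.2.1 = p
    generalize e.symm z.2.2 = q
    obtain ⟨c, p⟩ := p
    obtain ⟨c', q⟩ := q
    by_cases h : c = c'
    · subst h
      simp only [blockDiagonal'_apply_eq, tens_apply]
      refine isLaurent_prod _ _ fun i _ => ?_
      obtain ⟨b, m, hb⟩ := hmono t l c i (s z.1 i)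
      change IsLaurent fun y => (χ (Function.update t l y) c i (s z.1 i) : ℂ) *
        (τ0 c i (s z.1 i)).1 (p i) (q i)
      simp only [hb, Units.val_mul]
      exact ((isLaurent_const _).mul (isLaurent_zpow m)).mul (isLaurent_const _)
    · simp only [blockDiagonal'_apply_ne _ _ _ h]
      exact isLaurent_const 0
  -- the target is a member of the family
  let t0 : Fin d → ℂˣ := fun l => Additive.toMul (φ (w l))
  have hχ0 : ∀ c i, χ t0 c i = χ0 c i := by
    intro c i
    refine MonoidHom.eq_of_eqOn_dense (hgen i) ?_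
    rintro _ ⟨j, rfl⟩
    rw [hχ]
    have h : φ (Pi.single (c, ⟨i, j⟩) 1) = Ψ t0 (Pi.single (c, ⟨i, j⟩) 1) := by
      conv_lhs => rw [hw (Pi.single (c, ⟨i, j⟩) 1)]
      simp only [map_add, map_sum, map_zsmul, Ψ, AddMonoidHom.add_apply, AddMonoidHom.comp_apply,
        AddMonoidHom.coe_mk, ZeroHom.coe_mk, t0, ofMul_toMul]
    simp only [Dt, ← h, φ, evalHom_single, toMul_ofMul]
  have hrep : R t0 τ0 = sumRep a σ e hdet := by
    ext y : 1
    apply Subtype.ext
    change (bigRep a (fun c i => twist (χ t0 c i) (τ0 c i)) y).submatrix e.symm e.symm = _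
    rw [show (fun c i => twist (χ t0 c i) (τ0 c i)) = σ from
      funext fun c => funext fun i => by rw [hχ0, hσ]]
    rfl
  rw [← hrep]
  exact eq_zero_grid (fun t => evalRep s f (R t τ0)) hL hzero t0

/-- One field makes the integral points dense for a product of factors whose integral
representations are dense. -/
theorem dense_curves (hH : ∀ i, CurveLike (H i)) (r : ℕ) :
    ∃ L : IntermediateField ℚ ℂ, FiniteDimensional ℚ L ∧
      ∀ (N : ℕ) (s : Fin N → ∀ i, H i) (f : MvPolynomial (Fin N × Fin r × Fin r) ℂ),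
        (∀ (P : SLC r) (ρ : (∀ i, H i) →* SLC r),
          evalRep s f ((MulAut.conj P).toMonoidHom.comp ρ) = evalRep s f ρ) →
        (∀ ρ, Semisimple ρ → IntegralIn L ρ → evalRep s f ρ = 0) →
        ∀ ρ, Semisimple ρ → evalRep s f ρ = 0 := by
  classical
  choose k x hgen hchar using fun i => (hH i).chars
  let M : ℕ := ∏ z : Σ C : Fin (r + 1), Fin C → Fin n → Fin (r + 1),
    torusOrder k fun c i => (z.2 c i : ℕ)
  have hM : 0 < M := Finset.prod_pos fun z _ => torusOrder_pos k _
  refine ⟨field M, field_finite hM, fun N s f hinv hint ρ hρ => ?_⟩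
  obtain ⟨C, a, σ, e, P, hC, ha, hspan, hP⟩ := exists_blocks ρ hρ
  have hsub : ∀ y, ((P * ρ y * P⁻¹ : SLC r) : Matrix (Fin r) (Fin r) ℂ) =
      (bigRep a σ y).submatrix e.symm e.symm := by
    let c1 : SLC r →* Matrix (Fin r) (Fin r) ℂ :=
      { toFun := fun A => (A : Matrix (Fin r) (Fin r) ℂ)
        map_one' := rfl
        map_mul' := fun _ _ => rfl }
    let f1 : (∀ i, H i) →* Matrix (Fin r) (Fin r) ℂ :=
      c1.comp ((MulAut.conj P).toMonoidHom.comp ρ)
    let f2 : (∀ i, H i) →* Matrix (Fin r) (Fin r) ℂ :=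
      (Matrix.reindexAlgEquiv ℂ ℂ e).toAlgHom.toRingHom.toMonoidHom.comp (bigRep a σ)
    exact fun y => DFunLike.congr_fun (pi_hom_ext (f := f1) (g := f2) fun i y => hP i y) y
  have hdet : ∀ y, (bigRep a σ y).det = 1 := fun y => by
    rw [← det_submatrix_equiv_self e.symm, ← hsub, Matrix.SpecialLinearGroup.det_coe]
  have hzero := zero_at_sum hH x hgen hchar hM s a σ e hdet (fun c i => (ha c i).1) hspan
    (Finset.dvd_prod_of_mem (fun z : Σ C : Fin (r + 1), Fin C → Fin n → Fin (r + 1) =>
        torusOrder k fun c i => (z.2 c i : ℕ))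
      (Finset.mem_univ ⟨⟨C, Nat.lt_succ_of_le hC⟩,
        fun c i => ⟨a c i, Nat.lt_succ_of_le (ha c i).2⟩⟩))
    f hint
  rw [← hinv P ρ, ← hzero]
  congr 1
  ext y : 1
  exact Subtype.ext (hsub y)

end Vale.Agent.P002.CurveProd
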