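import Vale.Agent.P002.Surf.Base
import Vale.Agent.P002.Surf.Main
import Vale.Agent.P002.Surf.Interior
import Vale.Agent.P002.Surf.Density
import Vale.Agent.P002.Surf.PairLemma

/-!
P002, products of curves: the two properties of a factor that the product theorem uses, and their
proofs for free groups and for surface groups of genus at least two.
-/

namespace Vale.Agent.P002.CurveProd

open Matrix
open scoped commutatorElement

universe u

/-- Integral representations are dense among the semisimple ones, and the characters form a torus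
in the values at some generators. -/
structure CurveLike (H : Type u) [Group H] : Prop where
  dense : ∀ (a n : ℕ) (s : Fin n → H) (f : MvPolynomial (Fin n × Fin a × Fin a) ℂ),
    (∀ σ : H →* SLC a, (∀ x p q, ∃ z : ℤ, (σ x).1 p q = (z : ℂ)) → evalRep s f σ = 0) →
      ∀ σ : H →* SLC a, Semisimple σ → evalRep s f σ = 0
  chars : ∃ (k : ℕ) (x : Fin k → H), Subgroup.closure (Set.range x) = ⊤ ∧
    ∀ v : Fin k → ℂˣ, ∃ χ : H →* ℂˣ, ∀ j, χ (x j) = v j

variable {H K : Type u} [Group H] [Group K]

/-- The properties are invariant under isomorphism. -/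
theorem CurveLike.congr (hH : CurveLike H) (e : K ≃* H) : CurveLike K where
  dense a n s f hint σ hσ := by
    have h := hH.dense a n (fun l => e (s l)) f (fun τ hτ => by
      have h := hint (τ.comp e.toMonoidHom) fun x p q => hτ (e x) p q
      simpa [evalRep] using h) (σ.comp e.symm.toMonoidHom) ?_
    · simpa [evalRep] using h
    intro W hW
    obtain ⟨W', hW', hc⟩ := hσ W fun g v hv => by simpa using hW (e g) v hv
    exact ⟨W', fun g v hv => hW' (e.symm g) v hv, hc⟩
  chars := by
    obtain ⟨k, x, hgen, hv⟩ := hH.chars
    refine ⟨k, fun j => e.symm (x j), ?_, fun v => ?_⟩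
    · rw [show Set.range (fun j => e.symm (x j)) = e.symm.toMonoidHom '' Set.range x from
          Set.range_comp _ _, ← MonoidHom.map_closure, hgen]
      exact Subgroup.map_top_of_surjective _ e.symm.surjective
    · obtain ⟨χ, hχ⟩ := hv v
      exact ⟨χ.comp e.toMonoidHom, fun j => by simp [hχ]⟩

/-- In a generated group the images of the elements are polynomial in those of the generators. -/
theorem exists_polyEntries {ι : Type} {a : ℕ} (x : ι → H) (hx : Subgroup.closure (Set.range x) = ⊤)
    (y : H) : ∃ M : Matrix (Fin a) (Fin a) (MvPolynomial (ι × Fin a × Fin a) ℂ),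
      ∀ σ : H →* SLC a, (σ y).1 =
        (MvPolynomial.eval fun z => (σ (x z.1)).1 z.2.1 z.2.2).mapMatrix M := by
  have hy : y ∈ Subgroup.closure (Set.range x) := hx ▸ Subgroup.mem_top y
  induction hy using Subgroup.closure_induction with
  | mem y hy =>
    obtain ⟨j, rfl⟩ := hy
    refine ⟨Matrix.of fun p q => MvPolynomial.X (j, p, q), fun σ => ?_⟩
    ext p q
    simp
  | one => exact ⟨1, fun σ => by simp⟩
  | mul y z _ _ hy hz =>
    obtain ⟨M, hM⟩ := hy
    obtain ⟨N, hN⟩ := hz
    exact ⟨M * N, fun σ => by
      rw [map_mul, Matrix.SpecialLinearGroup.coe_mul, hM, hN, map_mul]⟩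
  | inv y _ hy =>
    obtain ⟨M, hM⟩ := hy
    exact ⟨M.adjugate, fun σ => by
      rw [map_inv, Matrix.SpecialLinearGroup.coe_inv, hM, RingHom.map_adjugate]⟩

/-- Free groups of finite rank. -/
theorem curveLike_free (k : ℕ) : CurveLike (FreeGroup (Fin k)) where
  dense a n s f hint σ _ := by
    choose M hM using fun l => exists_polyEntries (a := a) (FreeGroup.of (α := Fin k))
      (FreeGroup.closure_range_of _) (s l)
    let F : MvPolynomial (Fin k × Fin a × Fin a) ℂ :=
      MvPolynomial.aeval (fun z : Fin n × Fin a × Fin a => M z.1 z.2.1 z.2.2) f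
    have hev : ∀ τ : FreeGroup (Fin k) →* SLC a,
        MvPolynomial.eval (fun z => (τ (FreeGroup.of z.1)).1 z.2.1 z.2.2) F = evalRep s f τ := by
      intro τ
      rw [evalRep, Surf.eval_aeval]
      refine congrArg (MvPolynomial.eval · f) (funext fun z => ?_)
      rw [hM]
      rfl
    rw [← hev σ]
    refine Surf.sl_int_dense_pi (fun j => σ (FreeGroup.of j)) F fun B => ?_
    have h := hint ((Surf.intHom a).comp (FreeGroup.lift B)) fun y p q =>
      ⟨(FreeGroup.lift B y).1 p q, by simp [Surf.intHom]⟩
    rw [← hev] at h
    simpa using h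
  chars := ⟨k, FreeGroup.of, FreeGroup.closure_range_of _, fun v => ⟨FreeGroup.lift v, fun j => by
    simp⟩⟩

/-- Surface groups of genus at least two. -/
theorem curveLike_surface {g : ℕ} (hg : 2 ≤ g) : CurveLike (Surf.SurfaceGroup g) where
  dense a n s f hint σ hσ := by
    rcases Nat.lt_or_ge a 2 with ha | ha
    · have : Subsingleton (SLC a) := by
        rcases (by omega : a = 0 ∨ a = 1) with rfl | rfl
        · exact ⟨fun A B => Subtype.ext (Subsingleton.elim _ _)⟩
        · refine ⟨fun A B => Subtype.ext ?_⟩
          ext p q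
          have hA := A.2
          have hB := B.2
          rw [Matrix.det_fin_one] at hA hB
          rw [Subsingleton.elim p 0, Subsingleton.elim q 0, hA, hB]
      exact hint σ fun x p q => ⟨if p = q then 1 else 0, by
        rw [Subsingleton.elim (σ x) 1, Matrix.SpecialLinearGroup.coe_one, Matrix.one_apply]
        split_ifs <;> simp⟩
    · exact Surf.dense_surface hg ha (Surf.exists_forced_open hg ha)
        (fun i0 _ hPo hPd hPs _ hx hx' => Surf.mem_closure_sl'
          (fun _ _ _ p hp _ hU hne hns => Surf.pair_velocity_bound p hp hU hne hns)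
          hg i0 _ hPo hPd hPs hx hx') s f (fun ρ _ hi => hint ρ hi) σ hσ
  chars := by
    let E := Fintype.equivFin (Fin g × Bool)
    refine ⟨_, fun j => PresentedGroup.of (E.symm j), ?_, fun v => ?_⟩
    · rw [show Set.range (fun j => PresentedGroup.of (E.symm j)) = Set.range PresentedGroup.of from
        E.symm.surjective.range_comp PresentedGroup.of]
      exact PresentedGroup.closure_range_of _
    · have h : ∀ w ∈ ({(List.ofFn fun i : Fin g =>
          ⁅FreeGroup.of (i, true), FreeGroup.of (i, false)⁆).prod} : Set (FreeGroup (Fin g × Bool))),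
          FreeGroup.lift (fun z => v (E z)) w = 1 := by
        rintro w rfl
        rw [map_list_prod]
        refine List.prod_eq_one fun z hz => ?_
        obtain ⟨y, hy, rfl⟩ := List.mem_map.1 hz
        obtain ⟨i, rfl⟩ := List.mem_ofFn.1 hy
        rw [commutatorElement_def, map_mul, map_mul, map_mul, map_inv, map_inv, mul_right_comm _ _
          (FreeGroup.lift (fun z => v (E z)) (FreeGroup.of (i, true)))⁻¹, mul_inv_cancel, one_mul,
          mul_inv_cancel]
      exact ⟨PresentedGroup.toGroup h, fun j => by
        rw [PresentedGroup.toGroup.of, Equiv.apply_symm_apply]⟩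

end Vale.Agent.P002.CurveProd
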